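import Vale.Agent.P087.Main

open Vale.Agent.P087

/-- A bounded self-adjoint tuple `X` in a tracial von Neumann algebra with
`-∞ < χ(X) < χ*(X) < +∞`. -/
theorem Vale.Agent.Results.P087.EntropyGap.result :
    ∃ (H : Type) (_ : NormedAddCommGroup H) (_ : InnerProductSpace ℂ H) (_ : CompleteSpace H)
      (M : VonNeumannAlgebra H) (Ω : H) (n : ℕ) (X S : Fin n → Bdd H),
      IsTracial M Ω ∧ 1 ≤ n ∧ (∀ j, X j ∈ M ∧ IsSelfAdjoint (X j)) ∧
      (∀ j, S j ∈ M ∧ IsSelfAdjoint (S j) ∧ Semicircular (tau Ω) (S j)) ∧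
      FreeIndep (tau Ω) (genAlg X S) ∧
      ⊥ < chi (law Ω X) ∧ chi (law Ω X) < chiStar Ω X S ∧ chiStar Ω X S < ⊤ :=
  Vale.Agent.P087.main
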